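import Mathlib

/-!
The algebraic identity behind the PDE verification.
-/

namespace Vale.Agent.P252

/-- Simplification of the trace. -/
theorem trace_simp (M α β γ δ αw βw γw δw s D : ℝ)
    (hD : D = (α + β * s) * δ - γ ^ 2 * s) (hD0 : D ≠ 0) (hα : α ≠ 0) :
    (α + β * s) / D * δw + 2 * (-γ / D) * γw * s + M * (1 / α) * αw
      + ((1 / α) * βw + ((γ ^ 2 - β * δ) / (α * D)) * αw) * s
      + ((γ ^ 2 - β * δ) / (α * D)) * βw * s ^ 2
    = ((α + β * s) * δw - 2 * γ * γw * s + δ * (αw + βw * s)) / D + (M - 1) * αw / α := by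
  field_simp
  rw [hD]
  ring

/-- The bracket identity. -/
theorem alg_id (M x0 u V V1 V2 J J1 J2 s : ℝ) (hu : x0 ^ 2 = u ^ 2 - V ^ 2) (hu0 : u ≠ 0)
    (hV : V ≠ 0) (hJ : J ≠ 0) (hV1 : V1 ≠ 0) (hA : 2 * V1 + 4 * s * V2 ≠ 0)
    (hE2 : 2 * V * J * (M * J1 + 2 * s * J2) * (2 * V1)
        + 4 * (M - 1) * s * V * J * (2 * V2) * J1
        - 4 * (M + 3) * s * V * J1 ^ 2 * (2 * V1)
        = J ^ 2 * (2 * V1) * (2 * V1 + 4 * s * V2)) :
    ((2 * (V * V1) / u + 4 * ((V1 ^ 2 + V * V2) / u - (V * V1) ^ 2 / u ^ 3) * s)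
        * ((M + 2) * (M * x0 ^ 2 / u ^ 2 + 1))
      - 2 * (-2 * x0 * (V * V1) / u ^ 3)
        * (2 * (M + 2) * x0 * (-(M + 2) * ((V1 * J + V * J1) / (V * J)) + M * (V * V1) / u ^ 2)) * s
      + V ^ 2 / u ^ 3 * ((2 * (-(M + 2) * ((V1 * J + V * J1) / (V * J)) * u ^ 2
            + (M + 2) * (V * V1)))
          + (4 * (((M + 2) ^ 2 * ((V1 * J + V * J1) / (V * J)) ^ 2
              - (M + 2) * ((V2 * J + 2 * V1 * J1 + V * J2) / (V * J)
                - ((V1 * J + V * J1) / (V * J)) ^ 2)) * u ^ 2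
              - 2 * (M + 2) ^ 2 * ((V1 * J + V * J1) / (V * J)) * (V * V1)
              + (M + 2) * M * (V * V1) ^ 2 / u ^ 2 + (M + 2) * (V1 ^ 2 + V * V2))) * s))
        / (V ^ 3 * (2 * V1 + 4 * s * V2) / u ^ 4)
      + (M - 1) * (2 * (-(M + 2) * ((V1 * J + V * J1) / (V * J)) * u ^ 2
            + (M + 2) * (V * V1))) / (2 * (V * V1) / u) = 0 := by
  have key : ((2 * (V * V1) / u + 4 * ((V1 ^ 2 + V * V2) / u - (V * V1) ^ 2 / u ^ 3) * s)
        * ((M + 2) * (M * x0 ^ 2 / u ^ 2 + 1))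
      - 2 * (-2 * x0 * (V * V1) / u ^ 3)
        * (2 * (M + 2) * x0 * (-(M + 2) * ((V1 * J + V * J1) / (V * J)) + M * (V * V1) / u ^ 2)) * s
      + V ^ 2 / u ^ 3 * ((2 * (-(M + 2) * ((V1 * J + V * J1) / (V * J)) * u ^ 2
            + (M + 2) * (V * V1)))
          + (4 * (((M + 2) ^ 2 * ((V1 * J + V * J1) / (V * J)) ^ 2
              - (M + 2) * ((V2 * J + 2 * V1 * J1 + V * J2) / (V * J)
                - ((V1 * J + V * J1) / (V * J)) ^ 2)) * u ^ 2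
              - 2 * (M + 2) ^ 2 * ((V1 * J + V * J1) / (V * J)) * (V * V1)
              + (M + 2) * M * (V * V1) ^ 2 / u ^ 2 + (M + 2) * (V1 ^ 2 + V * V2))) * s))
        / (V ^ 3 * (2 * V1 + 4 * s * V2) / u ^ 4)
      + (M - 1) * (2 * (-(M + 2) * ((V1 * J + V * J1) / (V * J)) * u ^ 2
            + (M + 2) * (V * V1))) / (2 * (V * V1) / u)
      = - ((M + 2) * u ^ 3 / (V ^ 2 * J ^ 2 * (2 * V1) * (2 * V1 + 4 * s * V2)))
        * ((2 * V * J * (M * J1 + 2 * s * J2) * (2 * V1)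
        + 4 * (M - 1) * s * V * J * (2 * V2) * J1
        - 4 * (M + 3) * s * V * J1 ^ 2 * (2 * V1))
        - J ^ 2 * (2 * V1) * (2 * V1 + 4 * s * V2)) := by
    have e1 : 2 * (-2 * x0 * (V * V1) / u ^ 3)
        * (2 * (M + 2) * x0 * (-(M + 2) * ((V1 * J + V * J1) / (V * J)) + M * (V * V1) / u ^ 2)) * s
        = 2 * (-2 * (V * V1) / u ^ 3)
        * (2 * (M + 2) * (-(M + 2) * ((V1 * J + V * J1) / (V * J)) + M * (V * V1) / u ^ 2)) * s
          * x0 ^ 2 := by ring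
    rw [e1, hu]
    obtain ⟨A, hA'⟩ : ∃ A, A = 2 * V1 + 4 * s * V2 := ⟨_, rfl⟩
    rw [← hA'] at hA ⊢
    field_simp
    rw [hA']
    ring
  rw [key, hE2, sub_self, mul_zero]

end Vale.Agent.P252
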